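import Vale.Agent.P352X.Api4

/-!
# P352X, row STRUCT: distributions that vanish off the diagonal
-/

set_option linter.all false

noncomputable section

open Filter Topology Set
open scoped SchwartzMap ContDiff

namespace Vale.Agent.P352X.Str

open Vale.Agent.P352 Vale.Agent.P352.GF Api4

variable {E B : Type*} [NormedAddCommGroup E] [NormedSpace ℝ E] [NormedAddCommGroup B]
  [NormedSpace ℂ B]

/-- `Λ` vanishes off the diagonal -/
def Off (Λ : 𝓢(E × E, ℂ) →L[ℂ] B) : Prop :=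
  ∀ f : 𝓢(E × E, ℂ), (∀ x, (x, x) ∉ tsupport f) → Λ f = 0

variable {Λ : 𝓢(E × E, ℂ) →L[ℂ] B} {χ : E → ℂ} {C : ℝ} {m : ℕ}

lemma Off.congr (h : Off Λ) {f g : 𝓢(E × E, ℂ)} (e : ∀ x, ∀ᶠ z in 𝓝 (x, x), f z = g z) :
    Λ f = Λ g :=
  sub_eq_zero.1 ((map_sub Λ f g).symm.trans (h _ fun x =>
    notMem_tsupport_iff_eventuallyEq.2 ((e x).mono fun _ hz => sub_eq_zero.2 hz)))

lemma near (h1 : ∀ᶠ u in 𝓝 (0 : E), χ u = 1) {L : E → E} (hL : Continuous L) (h0 : L 0 = 0)
    (x : E) : ∀ᶠ z : E × E in 𝓝 (x, x), χ (L (z.1 - z.2)) = 1 := by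
  have : Tendsto (fun z : E × E => L (z.1 - z.2)) (𝓝 (x, x)) (𝓝 0) :=
    (hL.comp (continuous_fst.sub continuous_snd)).tendsto' _ _ (by simpa using h0)
  exact this.eventually h1

/-- a distribution of order `m` kills the functions that vanish to order `m + 1` -/
lemma Off.van (h : Off Λ) (hC : 0 ≤ C) (hb : ∀ f, ‖Λ f‖ ≤ C * ST.sn (E × E) ℂ m f) (hχ : Dc χ)
    (h1 : ∀ᶠ u in 𝓝 (0 : E), χ u = 1) {p : E → ℂ} (hp : ContDiff ℝ ∞ p)
    (hom : ∀ (s : ℝ) u, p (s • u) = s ^ (m + 1) * p u) (H f : 𝓢(E × E, ℂ))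
    (e : ∀ z, f z = p (z.1 - z.2) * H z) : Λ f = 0 := by
  have hψ := dc_mul_right hχ hp
  have bψ := ST.bd_sch (sch fun u => χ u * p u) (Nat.zero_le m) le_rfl
  rw [coe_sch hψ] at bψ
  set A := 2 ^ m * ST.sn E ℂ m (sch fun u => χ u * p u)
  have key : ∀ ε ∈ Ioc (0 : ℝ) 1,
      ‖Λ f‖ ≤ C * (2 ^ m * 2 ^ (m + 0) * (ε * (2 ^ m * A)) * ST.sn (E × E) ℂ (m + 0) H) := by
    rintro ε ⟨e0, e1⟩
    let L : E × E →L[ℝ] E :=
      ε⁻¹ • (ContinuousLinearMap.fst ℝ E E - ContinuousLinearMap.snd ℝ E E)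
    have hL : ‖L‖ ≤ 2 / ε := ContinuousLinearMap.opNorm_le_bound _ (by positivity) fun z => by
      show ‖ε⁻¹ • (z.1 - z.2)‖ ≤ _
      rw [norm_smul, Real.norm_of_nonneg (by positivity), div_eq_inv_mul, mul_assoc]
      gcongr
      linarith [norm_sub_le z.1 z.2, norm_fst_le z, norm_snd_le z]
    have t : (fun z => χ (L z)).HasTemperateGrowth := by
      have := (sch χ).hasTemperateGrowth.comp L.hasTemperateGrowth
      rwa [coe_sch hχ] at this
    have b := (bψ.comp L (by rw [le_div_iff₀ e0]; linarith) hL).const_mul ((ε : ℂ) ^ (m + 1))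
    rw [h.congr (g := SchwartzMap.smulLeftCLM ℂ (fun z => χ (L z)) f) fun x =>
      (near h1 (continuous_const_smul ε⁻¹) (smul_zero _) x).mono fun z hz => by
        rw [SchwartzMap.smulLeftCLM_apply_apply t, show χ (L z) = 1 from hz, one_smul]]
    refine (hb _).trans (mul_le_mul_of_nonneg_left (ST.sn_mul (l := 0)
      (b.mono fun z => le_of_eq ?_) H _ fun z => ?_) hC)
    · rw [norm_pow, Complex.norm_real, Real.norm_of_nonneg e0.le, div_pow]
      field_simp
      ring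
    · rw [SchwartzMap.smulLeftCLM_apply_apply t, e, smul_eq_mul,
        show z.1 - z.2 = ε • L z from (smul_inv_smul₀ e0.ne' _).symm, hom]
      ring
  have lim : Tendsto (fun ε : ℝ => C * (2 ^ m * 2 ^ (m + 0) * (ε * (2 ^ m * A)) *
      ST.sn (E × E) ℂ (m + 0) H)) (𝓝[>] 0) (𝓝 0) :=
    tendsto_nhdsWithin_of_tendsto_nhds (Continuous.tendsto' (by fun_prop) _ _ (by simp))
  exact norm_le_zero_iff.1 (ge_of_tendsto lim
    (mem_of_superset (Ioc_mem_nhdsGT one_pos) key))

lemma taylor {Φ : ℕ → ℝ → B} (h : ∀ k t, HasDerivAt (Φ k) (Φ (k + 1) t) t)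
    (h0 : ∀ t, Φ (m + 1) t = 0) :
    Φ 0 1 = ∑ k ∈ Finset.range (m + 1), (k.factorial : ℂ)⁻¹ • Φ k 0 := by
  have key : ∀ (n : ℕ) (t : ℝ), HasDerivAt
      (fun t => ∑ k ∈ Finset.range (n + 1), ((1 - t) ^ k / k.factorial : ℝ) • Φ k t)
      (((1 - t) ^ n / n.factorial : ℝ) • Φ (n + 1) t) t := fun n t => by
    induction n with
    | zero => simpa using h 0 t
    | succ n ih =>
      simp only [Finset.sum_range_succ _ (n + 1)]
      have d := ((((hasDerivAt_id' t).const_sub 1).fun_pow (n + 1)).div_const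
        ((n + 1).factorial : ℝ)).fun_smul (h (n + 1) t)
      convert ih.fun_add d using 1
      rw [add_left_comm, ← add_smul, Nat.factorial_succ]
      convert (add_zero _).symm
      convert zero_smul ℝ _
      push_cast
      field_simp
      simp
  have := is_const_of_deriv_eq_zero (fun t => (key m t).differentiableAt)
    (fun t => by rw [(key m t).deriv, h0, smul_zero]) 1 0
  rw [Finset.sum_range_succ'] at this
  simp only [sub_self, ne_eq, Nat.add_eq_zero_iff, one_ne_zero, and_false, not_false_eq_true,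
    zero_pow, zero_div, zero_smul, Finset.sum_const_zero, pow_zero, Nat.factorial_zero,
    Nat.cast_one, div_one, one_smul, zero_add, sub_zero, one_pow] at this
  rw [this]
  refine Finset.sum_congr rfl fun k _ => ?_
  rw [← Complex.coe_smul]
  simp

/-! ### the expansion -/

/-- monomials -/
def mon {k : ℕ} (γ : Fin k → Ix) (u : V) : ℂ := ∏ i, (u (γ i) : ℂ)

lemma smooth_mon {k : ℕ} (γ : Fin k → Ix) : ContDiff ℝ ∞ (mon γ) :=
  contDiff_prod fun i _ => Complex.ofRealCLM.contDiff.comp (contDiff_apply ℝ ℝ (γ i))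

lemma mon_smul {k : ℕ} (γ : Fin k → Ix) (s : ℝ) (u : V) : mon γ (s • u) = s ^ k * mon γ u := by
  simp [mon, Finset.prod_mul_distrib]

/-- derivatives in the first variable -/
def pdA {k : ℕ} (γ : Fin k → Ix) (G : S2) (q : V × V) : ℂ :=
  iteratedFDeriv ℝ k G q fun i => (bas (γ i) 1, 0)

lemma smooth_pdA {k : ℕ} (γ : Fin k → Ix) (G : S2) : ContDiff ℝ ∞ (pdA γ G) :=
  (ContinuousMultilinearMap.apply ℝ (fun _ : Fin k => V × V) ℂ fun i => (bas (γ i) 1, 0)).contDiff.comp
    ((G.smooth ⊤).iteratedFDeriv_right (m := ∞) (by exact_mod_cast le_top))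

lemma pdA_zero {k : ℕ} (γ : Fin k → Ix) (G : S2) {q : V × V} (h : q ∉ tsupport G) :
    pdA γ G q = 0 := by
  rw [pdA, Function.notMem_support.1 fun a => h (support_iteratedFDeriv_subset k a)]
  rfl

lemma iter_eq (k : ℕ) (G : S2) (q : V × V) (u : V) :
    iteratedFDeriv ℝ k G q (fun _ => (u, 0)) = ∑ γ : Fin k → Ix, mon γ u * pdA γ G q := by
  have : ((u, 0) : V × V) = ∑ n, u n • ((bas n 1, 0) : V × V) := by
    ext n <;> simp [Prod.fst_sum, Prod.snd_sum, bas]
  rw [this, ContinuousMultilinearMap.map_sum]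
  refine Finset.sum_congr rfl fun γ _ => ?_
  rw [ContinuousMultilinearMap.map_smul_univ, mon, pdA, ← Complex.ofReal_prod, Complex.real_smul]

lemma dg_apply {k : ℕ} (γ : Fin k → Ix) {G : S2} (hG : HasCompactSupport G) (z : V) :
    dg γ G z = pdA γ G (z, z) := by
  have e : (fun z => iteratedFDeriv ℝ k (fun u : V => G (z + u, z)) 0 fun i => bas (γ i) 1) =
      fun z => pdA γ G (z, z) := funext fun z => by
    have : (fun u : V => G (z + u, z)) =
        (fun q => G ((z, z) + q)) ∘ ContinuousLinearMap.inl ℝ V V := funext fun u => by simp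
    rw [this, ContinuousLinearMap.iteratedFDeriv_comp_right (f := fun q => G ((z, z) + q)) _
      ((G.smooth ⊤).comp (contDiff_const.add contDiff_id)) _ (ST.le_inf k),
      iteratedFDeriv_comp_add_left, map_zero, add_zero]
    rfl
  rw [dg, e]
  exact sch_apply (dc_of_zero ((smooth_pdA γ G).comp (contDiff_id.prodMk contDiff_id))
    (hG.image continuous_snd) fun x hx => pdA_zero γ G fun a => hx ⟨_, a, rfl⟩) z

/-- **the structure theorem** -/
theorem Off.expand [CompleteSpace B] {Λ : S2 →L[ℂ] B} {χ : V → ℂ} (h : Off Λ) (hC : 0 ≤ C)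
    (hb : ∀ f, ‖Λ f‖ ≤ C * ST.sn (V × V) ℂ m f) (hχ : Dc χ) (h1 : ∀ᶠ u in 𝓝 (0 : V), χ u = 1)
    {G : S2} (hG : HasCompactSupport G) : Λ G = ∑ k ∈ Finset.range (m + 1), ∑ γ : Fin k → Ix,
      (k.factorial : ℂ)⁻¹ • Λ (ten2 (sch fun u => mon γ u * χ u) (dg γ G)) := by
  let H : ∀ k, (Fin k → Ix) → ℝ → V × V → ℂ := fun k γ t z =>
    χ (z.1 - z.2) * pdA γ G (z.2 + t • (z.1 - z.2), z.2)
  let F : ℕ → ℝ → V × V → ℂ := fun k t z => ∑ γ, mon γ (z.1 - z.2) * H k γ t z
  have hK := (hχ.2.isCompact.prod (hG.isCompact.image continuous_snd)).image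
    (sh2 V).symm.continuous
  have sH : ∀ k γ, ContDiff ℝ ∞ fun q : ℝ × V × V => H k γ q.1 q.2 := fun k γ =>
    (hχ.1.comp (by fun_prop)).mul ((smooth_pdA γ G).comp (by fun_prop))
  have zH : ∀ k γ t z, z ∉ (sh2 V).symm '' tsupport χ ×ˢ (Prod.snd '' tsupport G) →
      H k γ t z = 0 := fun k γ t z hz => by_contra fun a => hz ⟨(z.1 - z.2, z.2),
    ⟨subset_tsupport _ (left_ne_zero_of_mul a), by_contra fun b =>
      right_ne_zero_of_mul a (pdA_zero γ G fun d => b ⟨_, d, rfl⟩)⟩, by simp⟩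
  have dH : ∀ k γ t, Dc (H k γ t) := fun k γ t =>
    (fam_of_compact isOpen_univ (sH k γ).contDiffOn hK fun t _ => zH k γ t).dc (mem_univ t)
  have dM : ∀ k γ t, Dc fun z : V × V => mon γ (z.1 - z.2) * H k γ t z := fun k γ t =>
    dc_mul_left ((smooth_mon γ).comp (by fun_prop)) (dH k γ t)
  have fF : ∀ k, Fam univ (F k) := fun k => fam_of_compact isOpen_univ
    (ContDiff.sum fun γ _ => ((smooth_mon γ).comp (by fun_prop)).mul (sH k γ)).contDiffOn hK
    fun t _ z hz => Finset.sum_eq_zero fun γ _ => by rw [zH k γ t z hz, mul_zero]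
  have eF : ∀ k t z, F k t z = χ (z.1 - z.2) *
      iteratedFDeriv ℝ k G ((z.2, z.2) + t • (z.1 - z.2, 0)) fun _ => (z.1 - z.2, 0) :=
    fun k t z => by
      rw [iter_eq, Finset.mul_sum]
      exact Finset.sum_congr rfl fun γ _ => by simp [H, mul_left_comm]
  have dF : ∀ k t z, deriv (fun t => F k t z) t = F (k + 1) t z := fun k t z => by
    simp only [eF]
    have d := ((G.smooth ⊤).differentiable_iteratedFDeriv (m := k)
      (by exact_mod_cast WithTop.coe_lt_top (k : ℕ)) _).hasFDerivAt.comp_hasDerivAt t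
      (((hasDerivAt_id' t).smul_const ((z.1 - z.2, 0) : V × V)).const_add (z.2, z.2))
    have d' := (ContinuousMultilinearMap.apply ℝ (fun _ : Fin k => V × V) ℂ
      fun _ => (z.1 - z.2, 0)).hasFDerivAt.comp_hasDerivAt t d
    rw [one_smul] at d'
    exact (d'.const_mul (χ (z.1 - z.2))).deriv
  have sF : ∀ k t, Λ (sch (F k t)) = ∑ γ, Λ (sch fun z => mon γ (z.1 - z.2) * H k γ t z) :=
    fun k t => by rw [← map_sum, ← sch_sum _ fun γ _ => dM k γ t]
  have := taylor (Φ := fun k t => Λ (sch (F k t))) (m := m)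
    (fun k t => by simpa only [dF] using (fF k).hasDerivAt Λ (mem_univ t)) fun t => by
      rw [sF]
      exact Finset.sum_eq_zero fun γ _ => h.van hC hb hχ h1 (smooth_mon γ) (mon_smul γ)
        (sch (H _ γ t)) _ fun z => by rw [sch_apply (dM _ γ t), sch_apply (dH _ γ t)]
  rw [h.congr (g := sch (F 0 1)) fun x => (near h1 continuous_id rfl x).mono fun z hz => by
    rw [sch_apply ((fF 0).dc (mem_univ 1)), eF, show χ (z.1 - z.2) = 1 from hz]
    simp, this]
  refine Finset.sum_congr rfl fun k _ => ?_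
  rw [sF, Finset.smul_sum]
  refine Finset.sum_congr rfl fun γ _ => congrArg (fun f => _ • Λ f) (sch_eq _ fun z => ?_)
  rw [ten2_apply, sch_apply (dc_mul_left (smooth_mon γ) hχ), dg_apply γ hG]
  simp [H, mul_assoc]

end Vale.Agent.P352X.Str
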